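import Vale.Agent.P014T.Sg.Ex
import Vale.Agent.P022K.QT.Cu1

/-! # P014T: the Siegel units in the field of modular functions (helper27) -/

set_option autoImplicit false
set_option linter.all false

open PowerSeries LaurentSeries Finset UpperHalfPlane CongruenceSubgroup ModularForm
open scoped MatrixGroups

noncomputable section

namespace Vale.Agent.P014T.Sg

open Vale.Agent.P022 H236 H236.L3 H218.L3 H231.L3 P027M.M P022K.QT.Cu
open P022K.FI (am)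

variable {c N a : ℕ} {v w : Fin 2 → ℚ}

theorem hol (n : Nz c v) : sg c v ∈ Hol := sg_hol n

theorem Nz.congr (n : Nz c v) (h : ∀ i, ∃ k : ℤ, v i = w i + k) : Nz c w := fun k => n fun i => by
  obtain ⟨x, e⟩ := h i
  obtain ⟨y, e'⟩ := k i
  exact ⟨y + c * x, by rw [e, mul_add, e']; push_cast; rfl⟩

theorem nf (hN : 0 < N) (h : ∀ i, ∃ k : ℤ, N * v i = k) : ∃ a < N, ∃ b : ℤ,
    ∀ i, ∃ k : ℤ, v i = (![(a : ℚ) / N, b / N] : Fin 2 → ℚ) i + k := by
  obtain ⟨x, h0⟩ := h 0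
  obtain ⟨b, h1⟩ := h 1
  have N0 : (N : ℚ) ≠ 0 := Nat.cast_ne_zero.2 hN.ne'
  obtain ⟨a, e⟩ := Int.eq_ofNat_of_zero_le (Int.emod_nonneg x (Nat.cast_ne_zero.2 hN.ne' : (N : ℤ) ≠ 0))
  have : (x : ℚ) = a + N * (x / N : ℤ) := by exact_mod_cast e ▸ (Int.emod_add_mul_ediv x N).symm
  refine ⟨a, by have := Int.emod_lt_of_pos x (Nat.cast_pos.2 hN : (0 : ℤ) < N); omega, b,
    Fin.forall_fin_two.2 ⟨⟨x / N, ?_⟩, 0, ?_⟩⟩
  · simp only [Matrix.cons_val_zero]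
    field_simp
    linear_combination h0 + this
  · simp [← h1, N0]

theorem ex_den (v : Fin 2 → ℚ) : ∃ N : ℕ, 0 < N ∧ ∀ i, ∃ k : ℤ, N * v i = k :=
  ⟨(v 0).den * (v 1).den, by positivity, Fin.forall_fin_two.2
    ⟨⟨(v 1).den * (v 0).num, by push_cast; rw [← Rat.mul_den_eq_num]; ring⟩,
      (v 0).den * (v 1).num, by push_cast; rw [← Rat.mul_den_eq_num]; ring⟩⟩

theorem vg_Gamma (h : ∀ i, ∃ k : ℤ, N * v i = k) {γ : SL(2, ℤ)} (m : γ ∈ Gamma N) (i : Fin 2) :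
    ∃ k : ℤ, vg v γ i = v i + k := by
  obtain ⟨x, h0⟩ := h 0
  obtain ⟨y, h1⟩ := h 1
  obtain ⟨a, b, c, d⟩ := Gamma_mem.1 m
  obtain ⟨a, ea⟩ := (ZMod.intCast_eq_intCast_iff_dvd_sub 1 _ N).1 (by rw [a, Int.cast_one])
  obtain ⟨d, ed⟩ := (ZMod.intCast_eq_intCast_iff_dvd_sub 1 _ N).1 (by rw [d, Int.cast_one])
  obtain ⟨b, eb⟩ := (ZMod.intCast_zmod_eq_zero_iff_dvd _ N).1 b
  obtain ⟨c, ec⟩ := (ZMod.intCast_zmod_eq_zero_iff_dvd _ N).1 c
  revert i
  refine Fin.forall_fin_two.2 ⟨⟨x * a + y * c, ?_⟩, x * b + y * d, ?_⟩ <;>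
    rw [vg_apply] <;> simp only [eq_add_of_sub_eq ea, eq_add_of_sub_eq ed, eb, ec] <;> push_cast
  · linear_combination a * h0 + c * h1
  · linear_combination b * h0 + d * h1

theorem exq_disc (hN : 0 < N) : Exq N (N + 24 * 0) (C 1 * pf (ee (0 : ℚ)) N N ^ 24) discriminant := by
  have N0 : (N : ℂ) ≠ 0 := Nat.cast_ne_zero.2 hN.ne'
  refine ((exq_mon N 1).mul ((exq_po hN N 0).pow 24)).congr (.of_forall fun s => ?_)
  simp only [Int.cast_natCast, mul_div_cancel_left₀ _ N0, Rat.cast_zero, add_zero, one_mul]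
  rw [discriminant, eta, mul_pow, Function.Periodic.qParam, ← Complex.exp_nat_mul, po, ee]
  congr 2
  · push_cast
    ring
  refine tprod_congr fun n => ?_
  rw [eta_q_eq_cexp, ee]
  congr 2
  ring

theorem sg_mem (hc : c ^ 2 % 24 = 1) (n : Nz c v) (hN : 0 < N) (h : ∀ i, ∃ k : ℤ, N * v i = k) :
    inc (sg c v) (hol n) ∈ MF (Gamma N) := by
  let k := ∑ a ∈ range N, (wx c N a).natAbs
  have D := isMF_disc.pow k
  have s : ∀ γ : SL(2, ℤ), (sg c v * discriminant ^ k) ∣[(k * 12 : ℤ)] γ =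
      sg c (vg v γ) * discriminant ^ k := fun γ => by
    rw [← zero_add (k * 12 : ℤ), mul_slash_SL2, D.slash γ trivial,
      (funext fun τ => by rw [SL_slash_apply, sg_law hc, neg_zero, zpow_zero, mul_one] : sg c v ∣[(0 : ℤ)] γ = sg c (vg v γ))]
  have D0 : discriminant ^ k ≠ 0 := fun e =>
    pow_ne_zero k (discriminant_ne_zero UpperHalfPlane.I) (congrFun e _)
  refine ⟨_, sg c v * discriminant ^ k, _, ⟨mul_mem (hol n) D.hol, fun γ m => by
    rw [s, sg_congr hc (vg_Gamma h m)], fun γ => ?_⟩, D.mono le_top, D0, by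
      rw [inc_mul (hol n) D.hol, mul_div_cancel_right₀ _ (inc_ne_zero _ D0)]⟩
  obtain ⟨a, ha, b, e⟩ := nf hN (vg_int h γ)
  rw [s, sg_congr hc e]
  refine Exq.bdd hN.ne' ((exq_sg hc ha _ ((n.vg γ).congr e)).2.mul ((exq_disc hN).pow k)) ?_
  have : (wx c N a).natAbs ≤ k := single_le_sum (f := fun a => (wx c N a).natAbs)
    (fun _ _ => Nat.zero_le _) (mem_range.2 ha)
  have : k ≤ k * N := Nat.le_mul_of_pos_right k hN
  rw [mul_zero, add_zero]
  clear_value k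
  omega

/-- the expansion -/
def xs (c N a : ℕ) (β : ℚ) : Qb⸨X⸩ :=
  HahnSeries.single (wx c N a) ((-1) ^ sx c N a * E (ux c N a * β)) *
    am Qb (pq (E β) (E (-β)) a N) ^ c ^ 2 / am Qb (pq (E (c * β)) (E (-(c * β))) (c * a % N) N)

theorem mp_single {A B : Type} [Field A] [Field B] (σ : A →+* B) (w : ℤ) (u : A) :
    mp σ (HahnSeries.single w u) = HahnSeries.single w (σ u) := by
  ext k
  simp [coeff_mp, HahnSeries.coeff_single, apply_ite σ]

theorem pq_map {R S : Type} [CommRing R] [CommRing S] (f : R →+* S) (u u' : R) (a N : ℕ) :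
    PowerSeries.map f (pq u u' a N) = pq (f u) (f u') a N := by rw [pq, map_mul, pf_map, pf_map, pq]

theorem exm_sg (hc : c ^ 2 % 24 = 1) (h : a < N) (β : ℚ) (n : Nz c ![a / N, β]) :
    ExM N (ioL (xs c N a β)) (inc _ (hol n)) := by
  obtain ⟨k, e⟩ := exq_sg hc h β n
  have i : ∀ r, (io : Qb →+* ℂ) (E r) = ee r := io_E
  have := e.exL.exM_inc (hol n)
  rw [ls, map_mul, map_mul, map_pow, HahnSeries.ofPowerSeries_C, ← mul_assoc, ← mul_assoc,
    HahnSeries.C_apply, HahnSeries.single_mul_single, add_zero, one_mul,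
    eq_inv_of_mul_eq_one_left (a := HahnSeries.ofPowerSeries ℤ ℂ _⁻¹)
      (by rw [← map_mul, PowerSeries.inv_mul_cancel _ k, map_one])] at this
  change ExM N (mp (io : Qb →+* ℂ) _) _
  simp only [xs, map_div₀, map_mul, map_pow, mp_am, mp_single, pq_map, i, map_zpow₀, map_neg, map_one]
  exact this

open Classical in
/-- **the Siegel unit** -/
def sF (c : ℕ) (v : Fin 2 → ℚ) : FF := if h : ic (sg c v) ∈ FS then mkF _ h else 1

section

variable (hc : c ^ 2 % 24 = 1)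
include hc

theorem sF_congr (h : ∀ i, ∃ k : ℤ, v i = w i + k) : sF c v = sF c w := by
  rw [sF, sg_congr hc h, sF]

theorem sF_neg (v : Fin 2 → ℚ) : sF c (-v) = sF c v := by rw [sF, sg_neg hc, sF]

theorem cv_sF (n : Nz c v) : cv (sF c v) = inc (sg c v) (hol n) := by
  obtain ⟨N, hN, h⟩ := ex_den v
  obtain ⟨a, ha, b, e⟩ := nf hN h
  have : ic (sg c v) ∈ FS := ⟨N, hN, ic_eq (hol n) ▸ sg_mem hc n hN h, _, by
    rw [sg_congr hc e, ic_eq (hol (n.congr e))]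
    exact exm_sg hc ha _ (n.congr e), alg_iff.2 ⟨_, rfl⟩⟩
  rw [sF, dif_pos this, cv_mkF, ic_eq (hol n)]

theorem sF_ne (n : Nz c v) : sF c v ≠ 0 := fun e =>
  inc_ne_zero (hol n) (fun k => sg_ne n I (congrFun k _)) (by rw [← cv_sF hc n, e, map_zero])

theorem ex_sF (h : a < N) (β : ℚ) (n : Nz c ![a / N, β]) :
    Ex N (sF c ![a / N, β]) (xs c N a β) := by
  rw [Ex, cv_sF hc n]
  exact exm_sg hc h β n

theorem sF_pg (X : Mdl) (n : Nz c v) (γ : SL(2, ℤ)) : X.pg γ (sF c v) = sF c (vg v γ) :=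
  cv_inj (by
    rw [Shim.cv_pg, cv_sF hc n, cv_sF hc (n.vg γ), Exp.act_inc]
    exact inc_congr _ (funext (sg_law hc γ v)))

theorem sF_L (n : Nz c v) {Γ : Subgroup SL(2, ℤ)}
    (h : ∀ γ ∈ Γ, (∀ i, ∃ k : ℤ, vg v γ i = v i + k) ∨ ∀ i, ∃ k : ℤ, vg v γ i = (-v) i + k) :
    sF c v ∈ L Γ := fun γ m => by
  rw [← inv_inv γ, cv_sF hc n, Exp.act_inc]
  refine inc_congr _ ((funext (sg_law hc _ v)).trans ?_)
  rcases h _ (inv_mem m) with k | k
  exacts [sg_congr hc k, (sg_congr hc k).trans (sg_neg hc v)]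

theorem sF_Gamma (n : Nz c v) (h : ∀ i, ∃ k : ℤ, N * v i = k) : sF c v ∈ L (Gamma N) :=
  sF_L hc n fun _ m => .inl (vg_Gamma h m)

theorem sF_prod {ι : Type} (s : Finset ι) {u : ι → Fin 2 → ℚ} (n : ∀ i, Nz c (u i)) {x : FF}
    {f : ℍ → ℂ} {hf : f ∈ Hol} (e : cv x = inc f hf) (k : ∀ τ, ∏ i ∈ s, sg c (u i) τ = f τ) :
    ∏ i ∈ s, sF c (u i) = x := cv_inj (by
  rw [map_prod, e, prod_congr rfl fun i _ => cv_sF hc (n i), ← inc_prod s fun i => hol (n i)]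
  exact inc_congr _ (funext fun τ => (prod_apply _ _ _).trans (k τ)))

theorem cv_pb (X : Mdl) (n : Nz c v) (A : M2) (hA : 0 < A.det) : cv (X.pb A hA (sF c v)) =
    inc (fun τ => sg c v (gl A hA • τ)) (comp_mem' _ (gl_pos A hA) (hol n)) := by
  rw [X.pb_coe, cv_sF hc n, pbz, pb_inc]

theorem sF_dist1 (X : Mdl) (ha : 0 < a) (k : a.Coprime c) {α β : ℚ} (n : Nz c ![α, a * β])
    (hA : 0 < (!![(a : ℤ), 0; 0, 1] : M2).det) :
    ∏ j ∈ range a, sF c ![α, β + j / a] = X.pb _ hA (sF c ![α, a * β]) := by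
  have a0 : (a : ℚ) ≠ 0 := Nat.cast_ne_zero.2 ha.ne'
  refine sF_prod hc _ (u := fun j : ℕ => ![α, β + j / a])
    (fun j m => n (Fin.forall_fin_two.2 ⟨m 0, ?_⟩)) (cv_pb hc X n _ hA) fun τ => ?_
  · obtain ⟨x, e⟩ := m 1
    exact ⟨a * x - c * j, by simp at e ⊢; rw [← e]; field_simp; ring⟩
  · have := dist1 (c := c) τ.2 ha k (α * τ + β)
    simp only [sg, coe_gl_smul]
    simp [← add_assoc, this]
    congr 1
    ring

theorem sF_dist2 (X : Mdl) (ha : 0 < a) (k : a.Coprime c) {α β : ℚ} (n : Nz c ![a * α, β])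
    (hA : 0 < (!![1, 0; 0, (a : ℤ)] : M2).det) :
    ∏ j ∈ range a, sF c ![α + j / a, β] = X.pb _ hA (sF c ![a * α, β]) := by
  have a0 : (a : ℚ) ≠ 0 := Nat.cast_ne_zero.2 ha.ne'
  have a1 : (a : ℂ) ≠ 0 := Nat.cast_ne_zero.2 ha.ne'
  refine sF_prod hc _ (u := fun j : ℕ => ![α + j / a, β])
    (fun j m => n (Fin.forall_fin_two.2 ⟨?_, m 1⟩)) (cv_pb hc X n _ hA) fun τ => ?_
  · obtain ⟨x, e⟩ := m 0
    exact ⟨a * x - c * j, by simp at e ⊢; rw [← e]; field_simp; ring⟩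
  · have := dist2 hc τ.2 ha k (α * τ + β)
    simp only [sg, coe_gl_smul]
    simp
    rw [mul_assoc, mul_left_comm, mul_div_cancel₀ _ a1, ← this]
    refine prod_congr rfl fun j _ => ?_
    congr 1
    ring

theorem sF_dist (ha : 0 < a) (k : a.Coprime c) {α β : ℚ} (n : Nz c ![a * α, a * β]) :
    ∏ p ∈ range a ×ˢ range a, sF c ![α + p.1 / a, β + p.2 / a] = sF c ![a * α, a * β] := by
  have a0 : (a : ℚ) ≠ 0 := Nat.cast_ne_zero.2 ha.ne'
  refine sF_prod hc _ (fun j m => n (Fin.forall_fin_two.2 ⟨?_, ?_⟩)) (cv_sF hc n) fun τ => ?_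
  · obtain ⟨x, e⟩ := m 0
    exact ⟨a * x - c * j.1, by simp at e ⊢; rw [← e]; field_simp; ring⟩
  · obtain ⟨x, e⟩ := m 1
    exact ⟨a * x - c * j.2, by simp at e ⊢; rw [← e]; field_simp; ring⟩
  · have := dist hc τ.2 ha k (α * τ + β)
    simp only [sg, prod_product]
    simp
    rw [mul_assoc, ← mul_add, ← this]
    refine prod_congr rfl fun i _ => prod_congr rfl fun j _ => ?_
    congr 1
    ring

end

theorem E_zpow (k : ℤ) (r : ℚ) : E (k * r) = E r ^ k := P027M.M.io_inj (by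
  rw [map_zpow₀, io_E, io_E, ← Complex.exp_int_mul]
  congr 1
  push_cast
  ring)

theorem gal_E {g : GQ} {k : ℤ} (h : Cyc N g k) {r : ℚ} (hN : 0 < N) (hr : ∃ b : ℤ, N * r = b) :
    g (E r) = E (k * r) := by
  obtain ⟨b, e⟩ := hr
  have N0 : (N : ℚ) ≠ 0 := Nat.cast_ne_zero.2 hN.ne'
  have : r = b * ((1 : ℤ) / N) := by rw [← e]; field_simp; simp
  rw [this, E_zpow, map_zpow₀, P027M.M.io_inj ((h _ (io_E_ze N 1)).trans (io_E_ze N k).symm), ← E_zpow]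
  congr 1
  push_cast
  ring

theorem mp_xs {g : GQ} {k : ℤ} (h : Cyc N g k) {β : ℚ} (hN : 0 < N) (hr : ∃ b : ℤ, N * β = b) :
    mp (g : Qb →+* Qb) (xs c N a β) = xs c N a (k * β) := by
  have i : ∀ m : ℤ, (g : Qb →+* Qb) (E (m * β)) = E (m * (k * β)) := fun m => by
    rw [E_zpow, E_zpow, map_zpow₀]
    exact congrArg (· ^ m) (gal_E h hN hr)
  have i1 := i 1
  have i2 := i (-1)
  have i3 := i c
  have i4 := i (-c)
  simp only [Int.cast_one, Int.cast_neg, Int.cast_natCast, one_mul, neg_mul] at i1 i2 i3 i4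
  simp only [xs, map_div₀, map_mul, map_pow, mp_am, mp_single, pq_map, i, i1, i2, i3, i4, map_zpow₀,
    map_neg, map_one]

theorem Nz.gal {α β : ℚ} (n : Nz c ![α, β]) {k : ℤ} (h : IsCoprime k (N : ℤ))
    (hr : ∃ b : ℤ, N * β = b) : Nz c ![α, k * β] := fun m => n (Fin.forall_fin_two.2 ⟨m 0, by
  obtain ⟨x, e⟩ := m 1
  obtain ⟨b, e'⟩ := hr
  obtain ⟨s, t, e''⟩ := h
  have : (s : ℚ) * k + t * N = 1 := by exact_mod_cast e''
  simp only [Matrix.cons_val_one, Matrix.cons_val_zero] at e ⊢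
  exact ⟨s * x + t * c * b, by push_cast; linear_combination s * e + t * c * e' - c * β * this⟩⟩)

theorem sF_gal (hc : c ^ 2 % 24 = 1) (X : Mdl) {α β : ℚ} (n : Nz c ![α, β]) (hN : 0 < N)
    (h : ∀ i, ∃ k : ℤ, N * (![α, β] : Fin 2 → ℚ) i = k) {g : GQ} {k : ℤ} (y : Cyc N g k) :
    X.gal g (sF c ![α, β]) = sF c ![α, k * β] := by
  obtain ⟨a, ha, b, e⟩ := nf hN h
  have e : ∀ β : ℚ, ∀ i, ∃ k : ℤ, (![α, β] : Fin 2 → ℚ) i = (![(a : ℚ) / N, β] : Fin 2 → ℚ) i + k :=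
    fun β => Fin.forall_fin_two.2 ⟨e 0, 0, by simp⟩
  rw [sF_congr hc (e _), sF_congr hc (e _)]
  refine ((ex_sF hc ha β (n.congr (e _))).gal X hN g).inj hN ?_
  rw [mp_xs (β := β) y hN (h 1)]
  exact ex_sF hc ha _ ((n.gal ((serg N hN g).2 k y).1 (h 1)).congr (e _))

end Vale.Agent.P014T.Sg
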