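import Vale.Agent.P014T.Sg.Th

/-! # P014T: the smoothed theta function and the Siegel units on `ℍ` (helper27) -/

set_option autoImplicit false
set_option linter.all false

open Complex Matrix UpperHalfPlane
open scoped MatrixGroups Manifold

noncomputable section

namespace Vale.Agent.P014T.Sg

/-- the function with divisor `c ^ 2 (0) - E[c]` -/
def Gc (c : ℕ) (τ z : ℂ) : ℂ :=
  ee ((c ^ 2 - 1) / 12 * τ + (c - c ^ 2) / 4) * th τ z ^ c ^ 2 / th τ (c * z)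

variable {c a : ℕ} {τ : ℂ}

theorem c_odd (hc : c ^ 2 % 24 = 1) : Odd c := by
  refine Nat.odd_pow_iff two_ne_zero |>.1 (Nat.odd_iff.2 (by omega))

theorem c_sq (hc : c ^ 2 % 24 = 1) : ∃ k : ℕ, c ^ 2 = 12 * k + 1 ∧ (c : ℂ) ^ 2 = 12 * k + 1 :=
  have : c ^ 2 = 12 * (2 * (c ^ 2 / 24)) + 1 := by omega
  ⟨_, this, by exact_mod_cast this⟩

theorem Gc_T (hc : c ^ 2 % 24 = 1) (τ z : ℂ) : Gc c (τ + 1) z = Gc c τ z := by
  obtain ⟨k, -, e⟩ := c_sq hc
  rw [Gc, Gc, th_T, th_T, ee_congr k]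
  rw [e]
  push_cast
  ring

theorem Gc_one (hc : c ^ 2 % 24 = 1) (τ z : ℂ) : Gc c τ (z + 1) = Gc c τ z := by
  rw [Gc, Gc, mul_add, mul_one, th_one, th_nat, (c_odd hc).neg_one_pow, (c_odd hc).pow.neg_pow,
    neg_one_mul, mul_neg, neg_div_neg_eq]

theorem Gc_neg (hc : c ^ 2 % 24 = 1) (h : 0 < τ.im) (z : ℂ) : Gc c τ (-z) = Gc c τ z := by
  rw [Gc, Gc, mul_neg, th_neg h, th_neg h, (c_odd hc).pow.neg_pow, mul_neg, neg_div_neg_eq]

theorem Gc_tau (hc : c ^ 2 % 24 = 1) (h : 0 < τ.im) (z : ℂ) : Gc c τ (z + τ) = Gc c τ z := by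
  rw [Gc, Gc, mul_add (c : ℂ), th_tau h, th_ntau h, (c_odd hc).neg_one_pow, mul_pow,
    (c_odd hc).pow.neg_pow, ← ee_nat, neg_one_mul, mul_left_comm,
    show ((c ^ 2 : ℕ) : ℂ) * (-z - τ / 2) = -(c * (c * z)) - c ^ 2 * τ / 2 by push_cast; ring,
    mul_div_mul_left _ _ (neg_ne_zero.2 (ee_ne _))]

theorem Gc_lat (hc : c ^ 2 % 24 = 1) (h : 0 < τ.im) (z : ℂ) (m n : ℤ) :
    Gc c τ (z + (m * τ + n)) = Gc c τ z := by
  have := ((show Function.Periodic (Gc c τ) τ from Gc_tau hc h).int_mul m).add_period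
    ((show Function.Periodic (Gc c τ) 1 from Gc_one hc τ).int_mul n) z
  rwa [mul_one] at this

theorem Gc_S (hc : c ^ 2 % 24 = 1) (h : 0 < τ.im) (z : ℂ) : Gc c (-1 / τ) (z / τ) = Gc c τ z := by
  obtain ⟨k, e0, e⟩ := c_sq hc
  have t0 : τ ≠ 0 := fun e => by simp [e] at h
  have p := pp_ne h
  have p' := pp_ne (im_S h)
  have := ee_ne τ
  have s : ee (-1 / τ) * (po (-1 / τ) (-1 / τ) ^ 2 / (τ * po τ τ ^ 2)) ^ 12 = ee τ := by
    rw [div_pow, ← pow_mul, ← mul_div_assoc, pp_S h]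
    field_simp
  have K0 : po (-1 / τ) (-1 / τ) ^ 2 / (τ * po τ τ ^ 2) ≠ 0 := by positivity
  rw [Gc, Gc, ← mul_div_assoc (c : ℂ), th_S h, th_S h]
  generalize po (-1 / τ) (-1 / τ) ^ 2 / (τ * po τ τ ^ 2) = K at *
  have a : ∀ t : ℂ, ee ((c ^ 2 - 1) / 12 * t + (c - c ^ 2) / 4) = ee t ^ k * ee ((c - c ^ 2) / 4) :=
    fun t => by
      rw [ee_add, ← ee_nat, e]
      congr 2
      ring
  have b : ee ((c * z) ^ 2 / (2 * τ)) = ee (z ^ 2 / (2 * τ)) ^ c ^ 2 := by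
    rw [← ee_nat]
    congr 1
    push_cast
    ring
  have := ee_ne (z ^ 2 / (2 * τ))
  rw [a, a, b, ← s, mul_pow, mul_pow, mul_pow, ← pow_mul, show K ^ c ^ 2 = K ^ (12 * k) * K by
    rw [e0, pow_succ]]
  generalize ee (z ^ 2 / (2 * τ)) = E at *
  by_cases t : th τ (c * z) = 0
  · simp [t]
  · field_simp

theorem Gc_ne (h : 0 < τ.im) {z : ℂ} (k : ¬ ∃ m n : ℤ, m * τ + n = c * z) : Gc c τ z ≠ 0 :=
  div_ne_zero (mul_ne_zero (ee_ne _) (pow_ne_zero _ (th_ne h fun ⟨m, n, e⟩ =>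
    k ⟨c * m, c * n, by rw [← e]; push_cast; ring⟩))) (th_ne h k)

theorem dist1 (h : 0 < τ.im) (ha : 0 < a) (k : a.Coprime c) (z : ℂ) :
    ∏ j ∈ Finset.range a, Gc c τ (z + j / a) = Gc c (a * τ) (a * z) := by
  have a0 : (a : ℂ) ≠ 0 := Nat.cast_ne_zero.2 ha.ne'
  have e1 : ∀ j : ℕ, (c : ℂ) * (z + j / a) = c * z + j * (c / a) := fun j => by ring
  have e2 : ∀ j : ℕ, z + j / a = z + j * ((1 : ℕ) / a) := fun j => by push_cast; ring
  obtain ⟨r, hr⟩ := Int.even_mul_pred_self c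
  have hr' : (c : ℂ) * (c - 1) = r + r := by exact_mod_cast hr
  simp only [Gc, Finset.prod_div_distrib, Finset.prod_mul_distrib, Finset.prod_pow, e1]
  simp only [e2]
  rw [th_dist h ha (ee_prim ha k), th_dist h ha (ee_prim ha (Nat.coprime_one_right a)),
    Finset.prod_const, Finset.card_range, mul_pow, ← ee_nat, ← ee_nat, ← mul_assoc, ← ee_add,
    mul_left_comm (a : ℂ) c, mul_div_mul_comm, ← ee_sub, ee_congr (r * (1 - a))
      (y := (c ^ 2 - 1) / 12 * (a * τ) + (c - c ^ 2) / 4) (by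
      push_cast
      linear_combination (1 - (a : ℂ)) / 2 * hr' + (a - 1) * (c - c ^ 2) / 4 * mul_inv_cancel₀ a0),
    ← mul_div_assoc]

theorem dist2 (hc : c ^ 2 % 24 = 1) (h : 0 < τ.im) (ha : 0 < a) (k : a.Coprime c) (z : ℂ) :
    ∏ j ∈ Finset.range a, Gc c τ (z + j * τ / a) = Gc c (τ / a) z := by
  have a0 : (a : ℂ) ≠ 0 := Nat.cast_ne_zero.2 ha.ne'
  have t0 : τ ≠ 0 := fun e => by simp [e] at h
  have h' : 0 < (τ / a).im := by
    rw [div_natCast_im]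
    positivity
  rw [← Gc_S hc h', show -1 / (τ / a) = a * (-1 / τ) by field_simp,
    show z / (τ / a) = a * (z / τ) by field_simp, ← dist1 (im_S h) ha k]
  refine Finset.prod_congr rfl fun j _ => ?_
  rw [← Gc_S hc h]
  congr 1
  field_simp

theorem dist (hc : c ^ 2 % 24 = 1) (h : 0 < τ.im) (ha : 0 < a) (k : a.Coprime c) (z : ℂ) :
    ∏ i ∈ Finset.range a, ∏ j ∈ Finset.range a, Gc c τ (z + i * τ / a + j / a) = Gc c τ (a * z) := by
  have a0 : (a : ℂ) ≠ 0 := Nat.cast_ne_zero.2 ha.ne'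
  have := dist2 hc (τ := a * τ) (by simp; positivity) ha k (a * z)
  rw [mul_div_cancel_left₀ _ a0] at this
  rw [← this]
  refine Finset.prod_congr rfl fun i _ => ?_
  rw [dist1 h ha k]
  congr 1
  field_simp

/-- the Siegel unit -/
def sg (c : ℕ) (v : Fin 2 → ℚ) (τ : ℍ) : ℂ := Gc c τ (v 0 * τ + v 1)

/-- `c v` is not integral -/
def Nz (c : ℕ) (v : Fin 2 → ℚ) : Prop := ¬ ∀ i, ∃ k : ℤ, c * v i = k

/-- the right action of integral matrices -/
def vg (v : Fin 2 → ℚ) (A : Matrix (Fin 2) (Fin 2) ℤ) : Fin 2 → ℚ := v ᵥ* A.map (Int.castRingHom ℚ)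

variable {v : Fin 2 → ℚ}

theorem vg_mul (v : Fin 2 → ℚ) (A B : Matrix (Fin 2) (Fin 2) ℤ) : vg v (A * B) = vg (vg v A) B := by
  rw [vg, vg, vg, Matrix.map_mul, vecMul_vecMul]

theorem vg_one (v : Fin 2 → ℚ) : vg v 1 = v := by simp [vg]

theorem vg_inv (v : Fin 2 → ℚ) (γ : SL(2, ℤ)) : vg (vg v γ) (γ⁻¹ : SL(2, ℤ)) = v := by
  rw [← vg_mul]
  exact (congrArg (vg v) (congrArg Subtype.val (mul_inv_cancel γ))).trans (vg_one v)

theorem vg_apply (v : Fin 2 → ℚ) (A : Matrix (Fin 2) (Fin 2) ℤ) (i : Fin 2) :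
    vg v A i = v 0 * A 0 i + v 1 * A 1 i := by
  simp [vg, vecMul, dotProduct, Fin.sum_univ_two]

theorem vg_int {N : ℕ} (h : ∀ i, ∃ k : ℤ, N * v i = k) (A : Matrix (Fin 2) (Fin 2) ℤ) (i : Fin 2) :
    ∃ k : ℤ, N * vg v A i = k := by
  obtain ⟨a, h0⟩ := h 0
  obtain ⟨b, h1⟩ := h 1
  exact ⟨a * A 0 i + b * A 1 i, by rw [vg_apply]; push_cast; rw [← h0, ← h1]; ring⟩

theorem Nz.vg (h : Nz c v) (γ : SL(2, ℤ)) : Nz c (vg v γ) := fun k => h fun i => by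
  have := vg_int k (γ⁻¹ : SL(2, ℤ)) i
  rwa [vg_inv] at this

theorem Nz.lat (h : Nz c v) (τ : ℍ) : ¬ ∃ m n : ℤ, m * (τ : ℂ) + n = c * (v 0 * τ + v 1) := by
  rintro ⟨m, n, e⟩
  have a := congrArg Complex.im e
  have b := congrArg Complex.re e
  simp [← mul_assoc, τ.im_pos.ne'] at a
  simp [a, mul_add, ← mul_assoc] at b
  exact h (Fin.forall_fin_two.2 ⟨⟨m, by exact_mod_cast a.symm⟩, n, by exact_mod_cast b.symm⟩)

theorem sg_ne (h : Nz c v) (τ : ℍ) : sg c v τ ≠ 0 := Gc_ne τ.2 (h.lat τ)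

theorem sg_hol (h : Nz c v) : MDifferentiable 𝓘(ℂ) 𝓘(ℂ) (sg c v) := by
  have d : ∀ y : ℂ → ℂ, Differentiable ℂ y → DifferentiableOn ℂ (fun s => th s (y s)) {s | 0 < s.im} :=
    fun y k => (((by fun_prop : Differentiable ℂ fun s => ee (-y s / 2)).differentiableOn).mul
      (po_diff isOpen_upperHalfPlaneSet differentiableOn_id k.differentiableOn fun _ => id)).mul
      (po_diff isOpen_upperHalfPlaneSet differentiableOn_id (by fun_prop) fun _ => id)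
  refine mdifferentiable_iff.2 (DifferentiableOn.congr (f := fun s => Gc c s (v 0 * s + v 1)) ?_
    fun s k => by simp [sg, ofComplex_apply_of_im_pos k])
  exact (((by fun_prop : Differentiable ℂ fun s : ℂ =>
    ee ((c ^ 2 - 1) / 12 * s + (c - c ^ 2) / 4)).differentiableOn).mul
    ((d _ (by fun_prop)).pow _)).div (d _ (by fun_prop)) fun s k => th_ne k (h.lat ⟨s, k⟩)

theorem sg_congr (hc : c ^ 2 % 24 = 1) {v w : Fin 2 → ℚ} (h : ∀ i, ∃ k : ℤ, v i = w i + k) :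
    sg c v = sg c w := funext fun τ => by
  obtain ⟨m, h0⟩ := h 0
  obtain ⟨n, h1⟩ := h 1
  rw [sg, sg, h0, h1, ← Gc_lat hc τ.2 (w 0 * τ + w 1) m n]
  congr 1
  push_cast
  ring

theorem sg_neg (hc : c ^ 2 % 24 = 1) (v : Fin 2 → ℚ) : sg c (-v) = sg c v := funext fun τ => by
  rw [sg, sg, ← Gc_neg hc τ.2]
  congr 1
  simp only [Pi.neg_apply]
  push_cast
  ring

theorem sg_law (hc : c ^ 2 % 24 = 1) (γ : SL(2, ℤ)) :
    ∀ (v : Fin 2 → ℚ) (τ : ℍ), sg c v (γ • τ) = sg c (vg v γ) τ := by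
  have : γ ∈ Subgroup.closure {ModularGroup.S, ModularGroup.T} := by
    simp [SpecialLinearGroup.SL2Z_generators]
  refine Subgroup.closure_induction (fun x k v τ => ?_) (fun v τ => by simp [vg_one])
    (fun x y _ _ a b v τ => by rw [mul_smul, a, b, ← vg_mul]; rfl) (fun x _ a v τ => ?_) this
  · rcases k with rfl | rfl
    · have := τ.ne_zero
      rw [sg, sg, ← Gc_S hc τ.2, modular_S_smul, vg_apply, vg_apply]
      simp only [coe_mk]
      congr 1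
      · field_simp
      simp [ModularGroup.S]
      field_simp
      ring
    · rw [sg, sg, ← Gc_T hc τ, modular_T_smul, vg_apply, vg_apply]
      simp [ModularGroup.T, add_comm]
      congr 1
      ring
  · have := vg_inv v x⁻¹
    rw [inv_inv] at this
    rw [← smul_inv_smul x τ, a, this, inv_smul_smul]

end Vale.Agent.P014T.Sg
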