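import Vale.Agent.P014T.Sg.Gc
import Vale.Agent.P022.H236.L3.Exm

/-! # P014T: the product expansion of the Siegel units (helper27) -/

set_option autoImplicit false
set_option linter.all false

open PowerSeries Filter Topology Finset UpperHalfPlane Function.Periodic

noncomputable section

namespace Vale.Agent.P014T.Sg

open Vale.Agent.P022.H236 Vale.Agent.P022.H236.L3

section

variable {R S : Type} [CommRing R] [CommRing S]

/-- the partial products -/
def pk (u : R) (a N K : ℕ) : R⟦X⟧ := ∏ n ∈ range K, (1 - C u * X ^ (a + n * N))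

/-- the formal product `∏ (1 - u X ^ (a + n N))` -/
def pf (u : R) (a N : ℕ) : R⟦X⟧ := mk fun k => coeff k (pk u a N (k + 1))

theorem pk_succ (u : R) (a N K k : ℕ) : coeff k (pk u a N (K + 1)) = coeff k (pk u a N K) -
    u * if a + K * N ≤ k then coeff (k - (a + K * N)) (pk u a N K) else 0 := by
  rw [pk, prod_range_succ, ← pk, mul_sub, mul_one, map_sub, mul_left_comm, coeff_C_mul, mul_comm _ (X ^ _),
    coeff_X_pow_mul']

theorem coeff_pf (u : R) (a : ℕ) {N K k : ℕ} (hN : 0 < N) (h : k < K) :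
    coeff k (pf u a N) = coeff k (pk u a N K) := by
  rw [pf, coeff_mk]
  induction K, h using Nat.le_induction with
  | base => rfl
  | succ K h e => rw [e, pk_succ u a N K, if_neg (by nlinarith), mul_zero, sub_zero]

theorem pf_dvd (u : R) (a : ℕ) {N : ℕ} (hN : 0 < N) (K : ℕ) : X ^ K ∣ pf u a N - pk u a N K :=
  X_pow_dvd_iff.2 fun k h => by rw [map_sub, coeff_pf u a hN h, sub_self]

theorem pk_map (f : R →+* S) (u : R) (a N K : ℕ) : map f (pk u a N K) = pk (f u) a N K := by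
  simp [pk, map_prod]

theorem pf_map (f : R →+* S) (u : R) (a N : ℕ) : map f (pf u a N) = pf (f u) a N := by
  ext k
  rw [coeff_map, pf, pf, coeff_mk, coeff_mk, ← pk_map, coeff_map]

theorem pf_zero (u : R) (a N : ℕ) : constantCoeff (pf u a N) = if a = 0 then 1 - u else 1 := by
  rw [← coeff_zero_eq_constantCoeff_apply, pf, coeff_mk, pk_succ]
  by_cases h : a = 0 <;> simp [h, pk]

end

theorem pk_le {u : ℂ} (hu : ‖u‖ ≤ 1) (a : ℕ) {N : ℕ} (hN : 0 < N) {ρ : ℝ} (h0 : 0 ≤ ρ) (h1 : ρ < 1)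
    (K : ℕ) : ∀ k, ‖coeff k (pk u a N K)‖ * ρ ^ k ≤ Real.exp (∑ n ∈ range K, ρ ^ n) := by
  induction K with
  | zero =>
    intro k
    by_cases h : k = 0 <;> simp [pk, coeff_one, h]
  | succ K ih =>
    intro k
    have e : ‖u * if a + K * N ≤ k then coeff (k - (a + K * N)) (pk u a N K) else 0‖ * ρ ^ k ≤
        Real.exp (∑ n ∈ range K, ρ ^ n) * ρ ^ K := by
      split_ifs with h
      · obtain ⟨j, rfl⟩ := Nat.exists_eq_add_of_le' h
        rw [Nat.add_sub_cancel, pow_add, ← mul_assoc, norm_mul]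
        refine mul_le_mul ((mul_le_mul_of_nonneg_right (mul_le_of_le_one_left (norm_nonneg _) hu)
          (by positivity)).trans (ih j)) (pow_le_pow_of_le_one h0 h1.le (by nlinarith))
          (by positivity) (by positivity)
      · simp
        positivity
    rw [pk_succ, sum_range_succ, Real.exp_add]
    refine (mul_le_mul_of_nonneg_right (norm_sub_le _ _) (by positivity)).trans ?_
    have := Real.add_one_le_exp (ρ ^ K)
    have := ih k
    have := Real.exp_pos (∑ n ∈ range K, ρ ^ n)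
    nlinarith

theorem ev_X (z : ℂ) (k : ℕ) : Ev (X ^ k) z (z ^ k) := by
  have := hasSum_single (f := fun n => coeff n (X ^ k : ℂ⟦X⟧) * z ^ n) k fun n h => by
    simp [coeff_X_pow, h]
  simpa [Ev, coeff_X_pow] using this

theorem ev_pf {u Q : ℂ} (hu : ‖u‖ ≤ 1) (hQ : ‖Q‖ < 1) (a : ℕ) {N : ℕ} (hN : 0 < N)
    (m : Multipliable fun n : ℕ => 1 - u * Q ^ (a + n * N)) :
    Ev (pf u a N) Q (∏' n : ℕ, (1 - u * Q ^ (a + n * N))) := by
  obtain ⟨ρ, h0, h1⟩ := exists_between hQ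
  have r0 : 0 < ρ := (norm_nonneg _).trans_lt h0
  have s : Summable fun k : ℕ => Real.exp (∑' n : ℕ, ρ ^ n) * (‖Q‖ / ρ) ^ k :=
    (summable_geometric_of_lt_one (by positivity) ((div_lt_one r0).2 h0)).mul_left _
  have b : ∀ K k, ‖coeff k (pk u a N K) * Q ^ k‖ ≤ Real.exp (∑' n : ℕ, ρ ^ n) * (‖Q‖ / ρ) ^ k :=
    fun K k => by
      rw [norm_mul, norm_pow, div_pow, ← mul_div_assoc, le_div_iff₀ (by positivity), mul_right_comm]
      exact mul_le_mul_of_nonneg_right ((pk_le hu a hN r0.le h1 K k).trans (Real.exp_le_exp.2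
        ((summable_geometric_of_lt_one r0.le h1).sum_le_tsum _ fun _ _ => by positivity)))
        (by positivity)
  have t := tendsto_tsum_of_dominated_convergence (𝓕 := atTop)
    (g := fun k => coeff k (pf u a N) * Q ^ k) s (fun k => tendsto_const_nhds.congr' (by
      filter_upwards [eventually_gt_atTop k] with K h
      rw [coeff_pf u a hN h])) (.of_forall b)
  have e : ∀ K, Ev (pk u a N K) Q (∏ n ∈ range K, (1 - u * Q ^ (a + n * N))) := fun K =>
    Ev.prod _ fun n _ => by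
      have := Ev.one.add ((ev_X Q (a + n * N)).smul (-u))
      rwa [smul_eq_C_mul, map_neg, neg_mul, neg_mul, ← sub_eq_add_neg, ← sub_eq_add_neg] at this
  simp only [fun K => (e K).tsum_eq] at t
  rw [← tendsto_nhds_unique t m.hasProd.tendsto_prod_nat]
  exact (s.of_norm_bounded fun k => by rw [coeff_pf u a hN k.lt_succ_self]; exact b _ _).hasSum

theorem q_eq {N : ℕ} (τ : ℂ) : qParam N τ = ee (τ / N) := by
  rw [qParam, ee, mul_div_assoc]
  rfl

theorem exq_po {N : ℕ} (hN : 0 < N) (a : ℕ) (β : ℚ) :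
    Exq N 0 (pf (ee β) a N) fun τ => po τ (a * τ / N + β) := .of_forall fun τ => by
  have N0 : (N : ℂ) ≠ 0 := Nat.cast_ne_zero.2 hN.ne'
  have e : ∀ n : ℕ, ee (a * τ / N + β + n * τ) = ee β * qParam N τ ^ (a + n * N) := fun n => by
    rw [q_eq, ← ee_nat, ← ee_add]
    congr 1
    push_cast
    field_simp
    ring
  have := ml τ.2 (a * τ / N + β)
  simp only [po, e, neg_zero, zpow_zero, mul_one] at this ⊢
  refine ev_pf (le_of_eq ?_) (q_eq (N := N) τ ▸ ee_lt (by rw [Complex.div_natCast_im]; exact div_pos τ.2 (Nat.cast_pos.2 hN))) a hN this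
  rw [ee, show 2 * Real.pi * Complex.I * β = (2 * Real.pi * β : ℝ) * Complex.I by push_cast; ring,
    Complex.norm_exp_ofReal_mul_I]

theorem exq_mon {N : ℕ} (w : ℤ) (u : ℂ) : Exq N w (C u) fun τ => u * ee (w * τ / N) :=
  .of_forall fun τ => by
    have := Ev.one.smul (z := qParam N τ) u
    rw [smul_eq_C_mul, mul_one, mul_one] at this
    beta_reduce
    rwa [mul_div_assoc, ee_zpow, ← q_eq, zpow_neg, mul_inv_cancel_right₀ (zpow_ne_zero _ (qne N τ))]

/-- the two products -/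
def pq {R : Type} [CommRing R] (u u' : R) (a N : ℕ) : R⟦X⟧ := pf u a N * pf u' (N - a) N

/-- the quotient -/
def jx (c N a : ℕ) : ℕ := c * a / N

/-- the sign -/
def sx (c N a : ℕ) : ℤ := (c - c ^ 2) / 2 + jx c N a

/-- the exponent of the root of unity -/
def ux (c N a : ℕ) : ℤ := (c - c ^ 2) / 2 + jx c N a * c

/-- the order -/
def wx (c N a : ℕ) : ℤ := N * ((c ^ 2 - 1) / 12 - jx c N a * (jx c N a + 1) / 2) + ux c N a * a

theorem exq_pq {N a : ℕ} (h : a < N) (β : ℚ) : Exq N 0 (pq (ee β) (ee (-β : ℚ)) a N) fun τ =>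
    po τ (a * τ / N + β) * po τ (τ - (a * τ / N + β)) := by
  have hN : 0 < N := by omega
  have N0 : (N : ℂ) ≠ 0 := Nat.cast_ne_zero.2 hN.ne'
  refine ((exq_po hN a β).mul (exq_po hN (N - a) (-β))).congr (.of_forall fun τ => ?_)
  simp only [Nat.cast_sub h.le]
  congr 2
  push_cast
  field_simp
  ring

theorem sg_eq {c N a : ℕ} (hc : c ^ 2 % 24 = 1) (h : a < N) (β : ℚ) (τ : ℍ) : sg c ![a / N, β] τ =
    (-1) ^ sx c N a * ee (ux c N a * β : ℚ) * ee (wx c N a * τ / N) *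
      (po τ (a * τ / N + β) * po τ (τ - (a * τ / N + β))) ^ c ^ 2 /
      (po τ ((c * a % N : ℕ) * τ / N + (c * β : ℚ)) *
        po τ (τ - ((c * a % N : ℕ) * τ / N + (c * β : ℚ)))) := by
  have N0 : (N : ℂ) ≠ 0 := Nat.cast_ne_zero.2 (by omega)
  obtain ⟨k, e0, e⟩ := c_sq hc
  obtain ⟨r, hr⟩ := Int.even_mul_pred_self c
  obtain ⟨s, hs⟩ := Int.even_mul_succ_self (jx c N a)
  have h1 : ((c : ℤ) - c ^ 2) / 2 = -r := by
    rw [show (c : ℤ) - c ^ 2 = 2 * -r by linear_combination -hr, Int.mul_ediv_cancel_left _ two_ne_zero]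
  have h2 : ((c : ℤ) ^ 2 - 1) / 12 = k := by
    have : (c : ℤ) ^ 2 = 12 * k + 1 := by exact_mod_cast e0
    omega
  have h3 : (jx c N a : ℤ) * (jx c N a + 1) / 2 = s := by omega
  have hr' : (c : ℂ) * (c - 1) = r + r := by exact_mod_cast hr
  have hs' : (jx c N a : ℂ) * (jx c N a + 1) = s + s := by exact_mod_cast hs
  have hj : (N : ℂ) * jx c N a + (c * a % N : ℕ) = c * a := by exact_mod_cast Nat.div_add_mod (c * a) N
  have i := mul_inv_cancel₀ N0
  have z1 : ((![a / N, β] : Fin 2 → ℚ) 0 : ℂ) * τ + (![a / N, β] : Fin 2 → ℚ) 1 = a * τ / N + β := by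
    simp
    ring
  have z2 : (c : ℂ) * (a * τ / N + β) = (c * a % N : ℕ) * τ / N + (c * β : ℚ) + jx c N a * τ := by
    rw [Rat.cast_mul, Rat.cast_natCast]
    linear_combination -τ / N * hj + jx c N a * τ * i
  rw [sg, Gc, z1, z2, th_ntau τ.2, th, th, mul_assoc (ee _), mul_assoc (ee _), mul_pow, ← ee_half,
    ← ee_nat, ← ee_nat, ← ee_zpow, ← mul_assoc, ← mul_assoc, ← ee_add, ← ee_add, ← ee_add, ← ee_add,
    ← ee_add, mul_div_mul_comm, ← ee_sub, mul_div_assoc (ee _)]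
  refine congrArg (· * _) (ee_congr (-jx c N a) ?_)
  rw [sx, wx, ux, h1, h2, h3, eq_sub_of_add_eq' hj]
  push_cast
  linear_combination (τ / 12) * e - (1 / 4 + (a * τ / N + β) / 2) * hr' - τ / 2 * hs' -
    τ * (jx c N a / 2 + jx c N a ^ 2 + k - s) * i

theorem exq_sg {c N a : ℕ} (hc : c ^ 2 % 24 = 1) (h : a < N) (β : ℚ) (n : Nz c ![a / N, β]) :
    constantCoeff (pq (ee (c * β : ℚ)) (ee (-(c * β) : ℚ)) (c * a % N) N) ≠ 0 ∧
    Exq N (wx c N a) (C ((-1) ^ sx c N a * ee (ux c N a * β : ℚ)) *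
      pq (ee β) (ee (-β : ℚ)) a N ^ c ^ 2 * (pq (ee (c * β : ℚ)) (ee (-(c * β) : ℚ)) (c * a % N) N)⁻¹)
      (sg c ![a / N, β]) := by
  have hN : 0 < N := by omega
  have h' := Nat.mod_lt (c * a) hN
  have k : constantCoeff (pq (ee (c * β : ℚ)) (ee (-(c * β) : ℚ)) (c * a % N) N) ≠ 0 := by
    rw [pq, map_mul, pf_zero, pf_zero, if_neg (by omega : ¬ N - c * a % N = 0), mul_one]
    split_ifs with z
    · refine sub_ne_zero.2 fun e => ?_
      obtain ⟨m, e⟩ := ee_one.1 e.symm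
      obtain ⟨l, hl⟩ := Nat.dvd_of_mod_eq_zero z
      refine n (Fin.forall_fin_two.2 ⟨⟨l, ?_⟩, m, by exact_mod_cast e⟩)
      have : (N : ℚ) ≠ 0 := Nat.cast_ne_zero.2 hN.ne'
      have : (c : ℚ) * a = N * l := by exact_mod_cast hl
      simp [← mul_div_assoc, *]
    · exact one_ne_zero
  have := ((exq_mon (N := N) (wx c N a) ((-1) ^ sx c N a * ee (ux c N a * β : ℚ))).mul
    ((exq_pq h β).pow (c ^ 2))).mul ((exq_pq h' (c * β)).inv hN.ne' k).2
  simp only [mul_zero, neg_zero, add_zero] at this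
  exact ⟨k, this.congr (.of_forall fun τ => by rw [sg_eq hc h, div_eq_mul_inv])⟩

theorem Exq.bdd {N : ℕ} {m : ℤ} {F : ℂ⟦X⟧} {f : ℍ → ℂ} (hN : N ≠ 0) (h : Exq N m F f) (hm : 0 ≤ m) :
    IsBoundedAtImInfty f := by
  obtain ⟨τ, h0⟩ := h.exists
  obtain ⟨p, e⟩ := hasFPS h0 (qne N τ)
  have t := (tendsto_q hN).mono_right nhdsWithin_le_nhds
  lift m to ℕ using hm
  have := (p.continuousAt.tendsto.comp t).mul (t.pow m)
  refine (this.congr' ?_).isBigO_one ℝ
  filter_upwards [h, t e] with τ a b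
  rw [Function.comp, ← a.unique b, zpow_neg, zpow_natCast,
    inv_mul_cancel_right₀ (pow_ne_zero _ (qne N τ))]

end Vale.Agent.P014T.Sg
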