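import Mathlib

/-! # P014T: the theta function and its transformation law (helper27) -/

set_option autoImplicit false
set_option linter.all false

open Complex Filter Topology
open scoped Real

noncomputable section

namespace Vale.Agent.P014T.Sg

/-- `e(x)` -/
def ee (x : ℂ) : ℂ := cexp (2 * π * I * x)

theorem ee_add (x y : ℂ) : ee (x + y) = ee x * ee y := by rw [ee, ee, ee, mul_add, exp_add]

theorem ee_ne (x : ℂ) : ee x ≠ 0 := exp_ne_zero _

theorem ee_zero : ee 0 = 1 := by simp [ee]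

theorem ee_neg (x : ℂ) : ee (-x) = (ee x)⁻¹ := by rw [ee, ee, mul_neg, exp_neg]

theorem ee_sub (x y : ℂ) : ee (x - y) = ee x / ee y := by
  rw [sub_eq_add_neg, ee_add, ee_neg, div_eq_mul_inv]

theorem ee_nat (n : ℕ) (x : ℂ) : ee (n * x) = ee x ^ n := by
  rw [ee, ee, ← exp_nat_mul, mul_left_comm]

theorem ee_zpow (n : ℤ) (x : ℂ) : ee (n * x) = ee x ^ n := by
  rw [ee, ee, ← exp_int_mul, mul_left_comm]

theorem ee_one {x : ℂ} : ee x = 1 ↔ ∃ k : ℤ, x = k := by
  have : (2 * π * I : ℂ) ≠ 0 := two_pi_I_ne_zero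
  rw [ee, exp_eq_one_iff]
  exact exists_congr fun k => by rw [mul_comm, mul_left_inj' this]

theorem ee_int (k : ℤ) : ee k = 1 := ee_one.2 ⟨k, rfl⟩

theorem ee_congr {x y : ℂ} (k : ℤ) (h : x = y + k) : ee x = ee y := by
  rw [h, ee_add, ee_int, mul_one]

theorem ee_half : ee (1 / 2) = -1 := by
  rw [ee, ← exp_pi_mul_I]
  congr 1
  ring

theorem ee_sum {ι : Type} (s : Finset ι) (f : ι → ℂ) : ee (∑ i ∈ s, f i) = ∏ i ∈ s, ee (f i) := by
  rw [ee, Finset.mul_sum, exp_sum]
  rfl

theorem ee_lt {τ : ℂ} (h : 0 < τ.im) : ‖ee τ‖ < 1 := by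
  rw [ee, norm_exp, Real.exp_lt_one_iff]
  simpa using mul_pos (mul_pos two_pos Real.pi_pos) h

@[fun_prop] theorem ee_diff : Differentiable ℂ ee := by
  unfold ee
  fun_prop

theorem ee_der (x : ℂ) : HasDerivAt ee (ee x * (2 * π * I)) x := by
  have := ((hasDerivAt_id x).const_mul (2 * π * I : ℂ)).cexp
  rw [mul_one] at this
  exact this

/-- `∏ (1 - t q ^ n)` -/
def po (τ y : ℂ) : ℂ := ∏' n : ℕ, (1 - ee (y + n * τ))

variable {τ : ℂ}

theorem sm (h : 0 < τ.im) (y : ℂ) : Summable fun n : ℕ => ‖-ee (y + n * τ)‖ := by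
  simp only [norm_neg, ee_add, ee_nat, norm_mul, norm_pow]
  exact (summable_geometric_of_lt_one (norm_nonneg _) (ee_lt h)).mul_left _

theorem ml (h : 0 < τ.im) (y : ℂ) : Multipliable fun n : ℕ => 1 - ee (y + n * τ) :=
  multipliable_one_add_of_summable (sm h y)

theorem po_ne (h : 0 < τ.im) {y : ℂ} (k : ∀ n : ℕ, ee (y + n * τ) ≠ 1) : po τ y ≠ 0 :=
  tprod_one_add_ne_zero_of_summable (f := fun n : ℕ => -ee (y + n * τ))
    (fun n => sub_ne_zero.2 (k n).symm) (sm h y)

theorem po_step (h : 0 < τ.im) (y : ℂ) : po τ y = (1 - ee y) * po τ (y + τ) := by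
  have e : ∀ n : ℕ, y + (n + 1 : ℕ) * τ = y + τ + n * τ := fun n => by push_cast; ring
  rw [po, tprod_eq_zero_mul' (by simp only [e]; exact ml h _)]
  simp only [e, Nat.cast_zero, zero_mul, add_zero, po]

theorem po_congr {τ τ' y y' : ℂ} (h : ee τ = ee τ') (h' : ee y = ee y') : po τ y = po τ' y' := by
  simp only [po, ee_add, ee_nat, h, h']

theorem po_diff {U : Set ℂ} (o : IsOpen U) {t y : ℂ → ℂ} (ht : DifferentiableOn ℂ t U)
    (hy : DifferentiableOn ℂ y U) (h : ∀ s ∈ U, 0 < (t s).im) :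
    DifferentiableOn ℂ (fun s => po (t s) (y s)) U := by
  have d : ∀ n : ℕ, DifferentiableOn ℂ (fun s => -ee (y s + n * t s)) U := fun n =>
    (ee_diff.comp_differentiableOn (hy.add (ht.const_mul _))).neg
  have : HasProdLocallyUniformlyOn (fun (n : ℕ) s => 1 + -ee (y s + n * t s))
      (fun s => po (t s) (y s)) U := by
    refine hasProdLocallyUniformlyOn_of_forall_compact o fun K hK c => ?_
    rcases K.eq_empty_or_nonempty with rfl | hN
    · simpa [hasProdUniformlyOn_iff_tendstoUniformlyOn] using tendstoUniformlyOn_empty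
    obtain ⟨a, ha, h1⟩ := c.exists_isMaxOn hN
      ((ee_diff.comp_differentiableOn ht).continuousOn.mono hK).norm
    obtain ⟨b, -, h2⟩ := c.exists_isMaxOn hN
      ((ee_diff.comp_differentiableOn hy).continuousOn.mono hK).norm
    refine ((summable_geometric_of_lt_one (norm_nonneg _) (ee_lt (h a (hK ha)))).mul_left
      ‖ee (y b)‖).hasProdUniformlyOn_nat_one_add c (.of_forall fun n x hx => ?_)
      fun n => (d n).continuousOn.mono hK
    rw [norm_neg, ee_add, ee_nat, norm_mul, norm_pow]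
    exact mul_le_mul (h2 hx) (pow_le_pow_left₀ (norm_nonneg _) (h1 hx) n) (by positivity)
      (norm_nonneg _)
  exact this.differentiableOn (.of_forall fun _ => by
    simpa only [Finset.prod_fn] using DifferentiableOn.finsetProd fun n _ => (d n).const_add 1) o

theorem po_dz (h : 0 < τ.im) : Differentiable ℂ (po τ) := differentiableOn_univ.1
  (po_diff isOpen_univ (differentiableOn_const τ) differentiableOn_id fun _ _ => h)

theorem po_dist (h : 0 < τ.im) {a : ℕ} (ha : 0 < a) {w : ℂ} (p : IsPrimitiveRoot (ee w) a) (y : ℂ) :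
    ∏ j ∈ Finset.range a, po τ (y + j * w) = po (a * τ) (a * y) := by
  simp only [po]
  rw [← Multipliable.tprod_finsetProd fun j _ => ml h _]
  refine tprod_congr fun n => ?_
  have := congrArg (Polynomial.eval 1) (X_pow_sub_C_eq_prod p ha (ee_nat a (y + n * τ)).symm)
  simp only [Polynomial.eval_prod, Polynomial.eval_sub, Polynomial.eval_pow, Polynomial.eval_X,
    Polynomial.eval_C, one_pow] at this
  rw [show (a : ℂ) * y + n * (a * τ) = a * (y + n * τ) by ring, this]
  refine Finset.prod_congr rfl fun j _ => ?_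
  rw [← ee_nat, ← ee_add]
  congr 2
  ring

theorem ee_prim {a c : ℕ} (ha : 0 < a) (hc : a.Coprime c) : IsPrimitiveRoot (ee (c / a)) a :=
  isPrimitiveRoot_exp_of_coprime c a ha.ne' hc.symm

/-- the theta function -/
def th (τ z : ℂ) : ℂ := ee (-z / 2) * po τ z * po τ (τ - z)

theorem th_eq (h : 0 < τ.im) (z : ℂ) :
    th τ z = (ee (-z / 2) - ee (z / 2)) * (po τ (z + τ) * po τ (τ - z)) := by
  have : ee (z / 2) = ee (-z / 2) * ee z := by
    rw [← ee_add]
    congr 1
    ring
  rw [th, po_step h z, this]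
  ring

theorem th_neg (h : 0 < τ.im) (z : ℂ) : th τ (-z) = -th τ z := by
  rw [th_eq h, th_eq h, neg_neg, sub_neg_eq_add, add_comm τ, neg_add_eq_sub]
  ring

theorem th_zero (h : 0 < τ.im) : th τ 0 = 0 := by simp [th_eq h]

theorem th_one (z : ℂ) : th τ (z + 1) = -th τ z := by
  rw [th, th, po_congr rfl (ee_congr 1 (y := z) (by simp)),
    po_congr rfl (ee_congr (-1) (x := τ - (z + 1)) (y := τ - z) (by push_cast; ring)),
    ee_congr (-1) (x := -(z + 1) / 2) (y := -z / 2 + 1 / 2) (by push_cast; ring), ee_add, ee_half]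
  ring

theorem th_tau (h : 0 < τ.im) (z : ℂ) : th τ (z + τ) = -ee (-z - τ / 2) * th τ z := by
  have e1 : ee (-(z + τ) / 2) = ee (-z - τ / 2) * ee (z / 2) := by
    rw [← ee_add]
    congr 1
    ring
  have e2 : ee (-z / 2) = ee (z / 2) * ee (-z) := by
    rw [← ee_add]
    congr 1
    ring
  rw [th_eq h z, th, show τ - (z + τ) = -z by ring, po_step h (-z), neg_add_eq_sub, e1, e2]
  ring

theorem th_nat (n : ℕ) (z : ℂ) : th τ (z + n) = (-1) ^ n * th τ z := by
  induction n with
  | zero => simp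
  | succ n k => rw [Nat.cast_succ, ← add_assoc, th_one, k, pow_succ]; ring

theorem th_ntau (h : 0 < τ.im) (n : ℕ) (z : ℂ) :
    th τ (z + n * τ) = (-1) ^ n * ee (-(n * z) - n ^ 2 * τ / 2) * th τ z := by
  induction n with
  | zero => simp [ee_zero]
  | succ n k =>
    have : ee (-((n + 1) * z) - (n + 1) ^ 2 * τ / 2) =
        ee (-(z + n * τ) - τ / 2) * ee (-(n * z) - n ^ 2 * τ / 2) := by
      rw [← ee_add]
      congr 1
      ring
    rw [Nat.cast_succ, this, add_mul, one_mul, ← add_assoc, th_tau h, k, pow_succ]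
    ring

theorem th_lat (h : 0 < τ.im) (m n : ℤ) : th τ (m * τ + n) = 0 := by
  have a : Function.Periodic (fun z => th τ z = 0) τ := fun z => by simp [th_tau h, ee_ne]
  have b : Function.Periodic (fun z => th τ z = 0) 1 := fun z => by simp [th_one]
  have := (a.int_mul m).add_period (b.int_mul n) 0
  simpa [th_zero h] using this

theorem th_dist (h : 0 < τ.im) {a : ℕ} (ha : 0 < a) {w : ℂ} (p : IsPrimitiveRoot (ee w) a) (z : ℂ) :
    ∏ j ∈ Finset.range a, th τ (z + j * w) = ee (-(a * (a - 1) * w / 4)) * th (a * τ) (a * z) := by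
  have s : ∀ a : ℕ, ∑ j ∈ Finset.range a, -(z + j * w) / 2 = -(a * (a - 1) * w / 4) + -(a * z) / 2 :=
    fun a => by
      induction a with
      | zero => simp
      | succ a k => rw [Finset.sum_range_succ, k]; push_cast; ring
  have e : ∀ j : ℕ, τ - (z + j * w) = τ - z + j * -w := fun j => by ring
  simp only [th, Finset.prod_mul_distrib, e]
  rw [po_dist h ha p, po_dist h ha (ee_neg w ▸ p.inv), ← ee_sum, s, ee_add, mul_sub]
  ring

theorem th_T (τ z : ℂ) : th (τ + 1) z = th τ z := by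
  have e := ee_congr 1 (x := τ + 1) (y := τ) (by simp)
  rw [th, th, po_congr e rfl, po_congr e (ee_congr 1 (y := τ - z) (by push_cast; ring))]

theorem th_dz (h : 0 < τ.im) : Differentiable ℂ (th τ) := by
  have := po_dz h
  unfold th
  fun_prop

theorem th_ne (h : 0 < τ.im) {z : ℂ} (k : ¬ ∃ m n : ℤ, m * τ + n = z) : th τ z ≠ 0 := by
  refine mul_ne_zero (mul_ne_zero (ee_ne _) (po_ne h fun n e => ?_)) (po_ne h fun n e => ?_) <;>
    obtain ⟨m, e⟩ := ee_one.1 e
  · exact k ⟨-n, m, by push_cast; linear_combination -e⟩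
  · exact k ⟨n + 1, -m, by push_cast; linear_combination e⟩

theorem pp_ne (h : 0 < τ.im) : po τ τ ≠ 0 := po_ne h fun n e => by
  obtain ⟨m, e⟩ := ee_one.1 e
  have := congrArg im e
  simp at this
  nlinarith [n.cast_nonneg (α := ℝ)]

theorem th_der (h : 0 < τ.im) : HasDerivAt (th τ) (-(2 * π * I) * po τ τ ^ 2) 0 := by
  have := po_dz h
  have d : DifferentiableAt ℂ (fun z => po τ (z + τ) * po τ (τ - z)) 0 := by fun_prop
  have a := (ee_der _).comp (0 : ℂ) ((hasDerivAt_id (0 : ℂ)).neg.div_const 2)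
  have b := (ee_der _).comp (0 : ℂ) ((hasDerivAt_id (0 : ℂ)).div_const 2)
  have := (a.sub b).mul d.hasDerivAt
  rw [funext (th_eq h)]
  refine (this.congr_deriv ?_)
  simp [ee_zero]
  ring

/-- Liouville -/
theorem lv (P : PeriodPair) {f g : ℂ → ℂ} (hf : Differentiable ℂ f) (hg : Differentiable ℂ g)
    (p : ∀ ω, ω = P.ω₁ ∨ ω = P.ω₂ → ∀ z, ∃ j, f (z + ω) = j * f z ∧ g (z + ω) = j * g z)
    (n : ∀ z ∉ P.lattice, g z ≠ 0) (f0 : f 0 = 0) (g0 : g 0 = 0) (g1 : deriv g 0 ≠ 0) {z : ℂ}
    (hz : z ∉ P.lattice) : f z = deriv f 0 / deriv g 0 * g z := by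
  classical
  let u : ℂ → ℂ := fun z => if z ∈ P.lattice then deriv f 0 / deriv g 0 else f z / g z
  have pe : ∀ w ∈ P.lattice, Function.Periodic u w := fun w hw => by
    refine Submodule.span_induction (fun ω k z => ?_) (by simp [Function.Periodic])
      (fun _ _ _ _ a b => a.add_period b) (fun k _ _ a => a.zsmul k) hw
    have e : z + ω ∈ P.lattice ↔ z ∈ P.lattice := add_mem_cancel_right (Submodule.subset_span k)
    obtain ⟨j, a, b⟩ := p ω k z
    by_cases m : z ∈ P.lattice
    · simp only [u, e, m, if_true]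
    · have := n _ (mt e.1 m)
      simp only [u, e, m, if_false]
      rw [a, b, mul_div_mul_left _ _ (left_ne_zero_of_mul (b ▸ this))]
  have d0 : DifferentiableAt ℂ u 0 := by
    have a : ∀ {f : ℂ → ℂ}, Differentiable ℂ f → DifferentiableAt ℂ (dslope f 0) 0 := fun h =>
      ((differentiableOn_dslope univ_mem).2 h.differentiableOn).differentiableAt univ_mem
    refine ((a hf).div (a hg) (by rwa [dslope_same])).congr_of_eventuallyEq ?_
    filter_upwards [P.compl_lattice_sdiff_singleton_mem_nhds 0] with x hx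
    by_cases e : x = 0
    · simp [u, e]
    · have : x ∉ P.lattice := fun m => hx ⟨m, e⟩
      simp only [u, this, if_false, Pi.div_apply, dslope_of_ne _ e, slope_def_field, f0, g0, sub_zero]
      rw [div_div_div_cancel_right₀ e]
  have d : Differentiable ℂ u := fun x => by
    by_cases m : x ∈ P.lattice
    · have : u = fun y => u (y - x) := funext fun y => ((pe x m).sub_eq y).symm
      rw [this]
      exact DifferentiableAt.comp x (g := u) (by rwa [sub_self]) (by fun_prop)
    · refine ((hf x).div (hg x) (n x m)).congr_of_eventuallyEq ?_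
      filter_upwards [P.isClosed_lattice.isOpen_compl.mem_nhds m] with y hy
      exact if_neg hy
  have := d.apply_eq_apply_of_bounded (IsZLattice.isCompact_range_of_periodic P.lattice _
    d.continuous fun z w hw => pe w hw z).isBounded z 0
  simp only [u, hz, zero_mem, if_true, if_false] at this
  rw [← this, div_mul_cancel₀ _ (n z hz)]

theorem im_S (h : 0 < τ.im) : 0 < (-1 / τ).im := by
  have : τ ≠ 0 := fun e => by simp [e] at h
  rw [neg_div, one_div, neg_im, inv_im, neg_div, neg_neg]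
  exact div_pos h (normSq_pos.2 this)

theorem th_S (h : 0 < τ.im) (z : ℂ) : th (-1 / τ) (z / τ) =
    po (-1 / τ) (-1 / τ) ^ 2 / (τ * po τ τ ^ 2) * (ee (z ^ 2 / (2 * τ)) * th τ z) := by
  have t0 : τ ≠ 0 := fun e => by simp [e] at h
  have h' := im_S h
  by_cases hz : ∃ m n : ℤ, m * τ + n = z
  · obtain ⟨m, n, rfl⟩ := hz
    rw [th_lat h, show (m * τ + n) / τ = (-n : ℤ) * (-1 / τ) + m by push_cast; field_simp; ring,
      th_lat h', mul_zero, mul_zero]
  let P : PeriodPair := ⟨τ, -1, by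
    rw [LinearIndependent.pair_iff]
    intro s t e
    have a := congrArg im e
    have b := congrArg re e
    simp [h.ne'] at a
    simpa [a] using b⟩
  have m : ∀ z, z ∈ P.lattice ↔ ∃ m n : ℤ, m * τ + n = z := fun z => by
    rw [PeriodPair.mem_lattice]
    exact ⟨fun ⟨a, b, e⟩ => ⟨a, -b, by simpa [P] using e⟩, fun ⟨a, b, e⟩ => ⟨a, -b, by simpa [P] using e⟩⟩
  have d1 := th_dz h
  have d2 := th_dz h'
  have a : HasDerivAt (fun z => th (-1 / τ) (z / τ)) (-(2 * π * I) * po (-1 / τ) (-1 / τ) ^ 2 * (1 / τ)) 0 :=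
    HasDerivAt.comp (0 : ℂ) (h₂ := th (-1 / τ)) (by simpa using th_der h') ((hasDerivAt_id _).div_const τ)
  have b : HasDerivAt (fun z => ee (z ^ 2 / (2 * τ)) * th τ z) (-(2 * π * I) * po τ τ ^ 2) 0 := by
    have : DifferentiableAt ℂ (fun z => ee (z ^ 2 / (2 * τ))) 0 := by fun_prop
    exact (this.hasDerivAt.mul (th_der h)).congr_deriv (by simp [th_zero h, ee_zero])
  have p := pp_ne h
  have q : (2 * π * I : ℂ) ≠ 0 := two_pi_I_ne_zero
  rw [lv P (f := fun z => th (-1 / τ) (z / τ)) (g := fun z => ee (z ^ 2 / (2 * τ)) * th τ z)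
    (by fun_prop) (by fun_prop) ?_ (fun z k => mul_ne_zero (ee_ne _) (th_ne h (mt (m z).2 k)))
    (by simp [th_zero h']) (by simp [th_zero h]) (by rw [b.deriv]; simp [p]) (mt (m z).1 hz),
    a.deriv, b.deriv]
  · field_simp
  rintro ω (k | k) z <;> rw [k] <;> simp only [P]
  · refine ⟨-1, by rw [add_div, div_self t0, th_one, neg_one_mul], ?_⟩
    have : ee (z ^ 2 / (2 * τ)) = ee ((z + τ) ^ 2 / (2 * τ)) * ee (-z - τ / 2) := by
      rw [← ee_add]
      congr 1
      field_simp
      ring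
    rw [th_tau h, this]
    ring
  · refine ⟨_, by rw [add_div, th_tau h'], ?_⟩
    have : ee ((z + -1) ^ 2 / (2 * τ)) = ee (z ^ 2 / (2 * τ)) * ee (-(z / τ) - -1 / τ / 2) := by
      rw [← ee_add]
      congr 1
      field_simp
      ring
    have e := th_one (τ := τ) (z + -1)
    rw [neg_add_cancel_right] at e
    rw [this, e]
    ring

theorem pp_S (h : 0 < τ.im) :
    ee (-1 / τ) * po (-1 / τ) (-1 / τ) ^ 24 = τ ^ 12 * (ee τ * po τ τ ^ 24) := by
  have k : ∀ s : UpperHalfPlane, ModularForm.discriminant s = ee s * po s s ^ 24 := fun s => by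
    rw [ModularForm.discriminant, ModularForm.eta, mul_pow, Function.Periodic.qParam, ← exp_nat_mul,
      po, ee]
    congr 2
    · push_cast
      ring
    refine tprod_congr fun n => ?_
    rw [ModularForm.eta_q_eq_cexp, ee]
    congr 2
    ring
  have := congrFun ModularForm.discriminant_S_invariant ⟨τ, h⟩
  have t0 : τ ≠ 0 := fun e => by simp [e] at h
  rw [ModularForm.SL_slash_apply, k, k, ModularGroup.denom_S, UpperHalfPlane.modular_S_smul] at this
  simp only [UpperHalfPlane.coe_mk, zpow_neg, zpow_ofNat, inv_neg] at this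
  rw [← this, neg_div, one_div]
  field_simp

end Vale.Agent.P014T.Sg
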